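import Vale.Agent.P368b.Clean

/-!
# P368: robust version
-/

namespace Vale.Agent.P368b

open Finset Function

/-- The inequality behind the robust version. -/
theorem two_vec {Y : Type} [Fintype Y] (κ r r' : Y → ℂ) (a : ℂ) :
    (∑ y, ‖r' y‖ ^ 2) * ∑ y, ‖κ y‖ ^ 2 ≤ ((∑ y, ‖r y‖ ^ 2) + ∑ y, ‖r' y‖ ^ 2) *
      ∑ y, (‖a * r y - κ y‖ ^ 2 + ‖a * r' y‖ ^ 2) := by
  set s := ∑ y, ‖r y‖ ^ 2 with hs
  set u := ∑ y, ‖r' y‖ ^ 2 with hu
  have hs0 : 0 ≤ s := Finset.sum_nonneg fun y _ => by positivity
  have hu0 : 0 ≤ u := Finset.sum_nonneg fun y _ => by positivity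
  set M := ∑ y, ‖κ y‖ ^ 2 with hM
  set D := ∑ y, ‖a * r y - κ y‖ ^ 2 with hD
  have hM0 : 0 ≤ M := Finset.sum_nonneg fun y _ => by positivity
  have hD0 : 0 ≤ D := Finset.sum_nonneg fun y _ => by positivity
  have e1 : ∑ y, (‖a * r y - κ y‖ ^ 2 + ‖a * r' y‖ ^ 2) = D + ‖a‖ ^ 2 * u := by
    rw [Finset.sum_add_distrib, hu, Finset.mul_sum]
    congr 1
    refine Finset.sum_congr rfl fun y _ => ?_
    rw [norm_mul, mul_pow]
  rw [e1]
  rcases hs0.eq_or_lt with h0 | hpos
  · have hr : ∀ y, r y = 0 := by
      intro y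
      have := (Finset.sum_eq_zero_iff_of_nonneg (fun y _ => by positivity)).1 h0.symm y
        (mem_univ y)
      have h2 := pow_eq_zero_iff (two_ne_zero) |>.1 this
      exact norm_eq_zero.1 h2
    have hDM : D = M := by
      rw [hD, hM]
      refine Finset.sum_congr rfl fun y _ => ?_
      rw [hr, mul_zero, zero_sub, norm_neg]
    rw [hDM, ← h0, zero_add]
    have : 0 ≤ u * (‖a‖ ^ 2 * u) := by positivity
    nlinarith
  · have hpt : ∀ y, u * s * ‖κ y‖ ^ 2 ≤
        (s + u) * (u * (‖a‖ ^ 2 * ‖r y‖ ^ 2) + s * ‖a * r y - κ y‖ ^ 2) := by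
      intro y
      have h1 : ‖κ y‖ ≤ ‖a * r y‖ + ‖a * r y - κ y‖ := by
        have := norm_sub_norm_le (κ y) (a * r y)
        rw [norm_sub_rev] at this
        linarith
      have h2 : ‖κ y‖ ^ 2 ≤ (‖a * r y‖ + ‖a * r y - κ y‖) ^ 2 :=
        pow_le_pow_left₀ (norm_nonneg _) h1 2
      have h3 : ‖a * r y‖ ^ 2 = ‖a‖ ^ 2 * ‖r y‖ ^ 2 := by rw [norm_mul, mul_pow]
      rw [← h3]
      have hus : 0 ≤ u * s := by positivity
      have h4 := mul_le_mul_of_nonneg_left h2 hus
      nlinarith [sq_nonneg (s * ‖a * r y - κ y‖ - u * ‖a * r y‖)]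
    have hsum := Finset.sum_le_sum fun y (_ : y ∈ (univ : Finset Y)) => hpt y
    rw [← Finset.mul_sum, ← Finset.mul_sum, Finset.sum_add_distrib, ← Finset.mul_sum,
      ← Finset.mul_sum, ← Finset.mul_sum, ← hM, ← hs, ← hD] at hsum
    have h5 : s * (u * M) ≤ s * ((s + u) * (D + ‖a‖ ^ 2 * u)) := by nlinarith
    exact le_of_mul_le_mul_left h5 hpos

variable {Q : Type} [Fintype Q] [DecidableEq Q]

/-- The ideal output: the qubit `t` is set to `f x`. -/
noncomputable def ideal (t : Q) (f : (Q → Bool) → Bool) (ψ : (Q → Bool) → ℂ) :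
    (Q → Bool) → ℂ := fun x => if x t = f x then ψ (update x t false) else 0

theorem approx_bound (c : List (Gate Q)) (U : Finset Q) (t : Q) (ht : t ∉ U)
    (f : (Q → Bool) → Bool) (hf : ∀ q ∈ U, ∀ y b, b ≠ y q → f (update y q b) = !(f y))
    (hft : ∀ y b, f (update y t b) = f y) (δ : ℝ) (hδ0 : 0 ≤ δ) (hδ : δ < 1 / 2)
    (hc : ∀ ψ : (Q → Bool) → ℂ, (∀ x, ψ x ≠ 0 → ∀ p, p ∉ U → x p = false) →
      ∑ x, ‖run c ψ x - ideal t f ψ x‖ ^ 2 ≤ δ * ∑ x, ‖ψ x‖ ^ 2) :
    U.card ≤ hitCount U c := by
  classical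
  by_contra hlt
  push Not at hlt
  obtain ⟨q, hq, v, hv, A, H⟩ := main c U hlt
  have hqt : q ≠ t := fun h => ht (h ▸ hq)
  let ρ : (Q → Bool) → ℂ := fun x => if ∀ p, p ∉ U → x p = false then 1 else 0
  have hρ : Indep U ρ := by
    intro p hp x b
    show (if ∀ p', p' ∉ U → update x p b p' = false then (1 : ℂ) else 0) =
      if ∀ p', p' ∉ U → x p' = false then 1 else 0
    have : (∀ p', p' ∉ U → update x p b p' = false) ↔ (∀ p', p' ∉ U → x p' = false) := by
      constructor
      · intro h p' hp'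
        have := h p' hp'
        rwa [update_of_ne (by rintro rfl; exact hp' hp)] at this
      · intro h p' hp'
        rw [update_of_ne (by rintro rfl; exact hp' hp)]
        exact h p' hp'
    simp only [this]
  obtain ⟨ρ', h1, h2⟩ := H ρ hρ
  have hne : ∀ p, ∃ b, v p b ≠ 0 := by
    intro p
    by_contra hno
    push Not at hno
    exact hv p (funext hno)
  choose β hβ using hne
  let P : (Q → Bool) → ℂ := fun y => ∏ p ∈ U.erase q, v p (y p)
  have hPq : ∀ y b, P (update y q b) = P y := by
    intro y b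
    refine Finset.prod_congr rfl fun p hp => ?_
    rw [update_of_ne (Finset.ne_of_mem_erase hp)]
  -- the sample points
  let Y := {y : Q → Bool // y q = false ∧ y t = false}
  let κ : Y → ℂ := fun y => P y.1 * ρ y.1
  let r : Y → ℂ := fun y => ρ' (update y.1 t (f y.1))
  let r' : Y → ℂ := fun y => ρ' (update y.1 t (!(f y.1)))
  -- the two inputs
  let ψ : Bool → (Q → Bool) → ℂ := fun b x => (if x q = b then 1 else 0) * (P x * ρ x)
  have hsupp : ∀ b x, ψ b x ≠ 0 → ∀ p, p ∉ U → x p = false := by
    intro b x hx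
    by_contra hno
    apply hx
    show (if x q = b then (1 : ℂ) else 0) * (P x * (if ∀ p, p ∉ U → x p = false then 1 else 0)) = 0
    rw [if_neg hno, mul_zero, mul_zero]
  -- restriction of a sum of squares to the points over Y
  have hres : ∀ (b : Bool) (F : (Q → Bool) → ℝ), (∀ x, 0 ≤ F x) →
      ∑ y : Y, (F (update (update y.1 q b) t (f y.1)) +
        F (update (update y.1 q b) t (!(f y.1)))) ≤ ∑ x, F x := by
    intro b F hF
    have e : ∑ y : Y, (F (update (update y.1 q b) t (f y.1)) +
        F (update (update y.1 q b) t (!(f y.1)))) =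
        ∑ z : Y × Bool, F (update (update z.1.1 q b) t z.2) := by
      rw [Fintype.sum_prod_type]
      refine Finset.sum_congr rfl fun y _ => ?_
      rw [Fintype.sum_bool]
      cases f y.1 <;> simp [add_comm]
    rw [e]
    have hinj : Function.Injective
        (fun z : Y × Bool => update (update z.1.1 q b) t z.2) := by
      rintro ⟨⟨y, hy1, hy2⟩, b1⟩ ⟨⟨z, hz1, hz2⟩, b2⟩ h
      have h0 : update (update y q b) t b1 = update (update z q b) t b2 := h
      have hb : b1 = b2 := by
        have := congrFun h0 t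
        rwa [update_self, update_self] at this
      have hyz : y = z := by
        funext p
        by_cases hpt : p = t
        · rw [hpt, hy2, hz2]
        · by_cases hpq : p = q
          · rw [hpq, hy1, hz1]
          · have := congrFun h0 p
            rwa [update_of_ne hpt, update_of_ne hpt, update_of_ne hpq, update_of_ne hpq] at this
      subst hb
      subst hyz
      rfl
    calc ∑ z : Y × Bool, F (update (update z.1.1 q b) t z.2)
        = ∑ x ∈ (univ : Finset (Y × Bool)).map ⟨_, hinj⟩, F x := by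
          rw [Finset.sum_map]
          rfl
      _ ≤ ∑ x, F x := Finset.sum_le_sum_of_subset_of_nonneg (subset_univ _)
          fun x _ _ => hF x
  -- the norm of the inputs
  have hnorm : ∀ b, ∑ x, ‖ψ b x‖ ^ 2 ≤ ∑ y : Y, ‖κ y‖ ^ 2 := by
    intro b
    have hinj : Function.Injective (fun y : Y => update y.1 q b) := by
      rintro ⟨y, hy1, hy2⟩ ⟨z, hz1, hz2⟩ h
      have h0 : update y q b = update z q b := h
      have hyz : y = z := by
        funext p
        by_cases hpq : p = q
        · rw [hpq, hy1, hz1]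
        · have := congrFun h0 p
          rwa [update_of_ne hpq, update_of_ne hpq] at this
      subst hyz
      rfl
    have e : ∑ y : Y, ‖κ y‖ ^ 2 = ∑ x ∈ (univ : Finset Y).map ⟨_, hinj⟩, ‖ψ b x‖ ^ 2 := by
      rw [Finset.sum_map]
      refine Finset.sum_congr rfl fun y _ => ?_
      show ‖P y.1 * ρ y.1‖ ^ 2 = ‖(if update y.1 q b q = b then (1 : ℂ) else 0) *
        (P (update y.1 q b) * ρ (update y.1 q b))‖ ^ 2
      rw [update_self, if_pos rfl, one_mul, hPq, hρ q hq]
    rw [e]
    refine (Finset.sum_subset (subset_univ _) fun x _ hx => ?_).symm.le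
    by_contra hne
    have hψ : ψ b x ≠ 0 := by
      intro h
      rw [h] at hne
      simp at hne
    have hz := hsupp b x hψ
    have hxq : x q = b := by
      by_contra hxq
      apply hψ
      show (if x q = b then (1 : ℂ) else 0) * _ = 0
      rw [if_neg hxq, zero_mul]
    apply hx
    rw [Finset.mem_map]
    refine ⟨⟨update x q false, update_self _ _ _, ?_⟩, mem_univ _, ?_⟩
    · rw [update_of_ne hqt.symm]
      exact hz t ht
    · show update (update x q false) q b = x
      rw [update_idem, ← hxq, update_eq_self]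
  have hM : 0 < ∑ y : Y, ‖κ y‖ ^ 2 := by
    let y0 : Q → Bool := fun p => if p ∈ U ∧ p ≠ q then β p else false
    have hy0 : y0 q = false ∧ y0 t = false := ⟨if_neg fun h => h.2 rfl, if_neg fun h => ht h.1⟩
    refine Finset.sum_pos' (fun y _ => by positivity) ⟨⟨y0, hy0⟩, mem_univ _, ?_⟩
    have hP0 : P y0 ≠ 0 := by
      refine Finset.prod_ne_zero_iff.2 fun p hp => ?_
      have : y0 p = β p := if_pos ⟨Finset.mem_of_mem_erase hp, Finset.ne_of_mem_erase hp⟩
      rw [this]
      exact hβ p
    have hρ0 : ρ y0 = 1 := if_pos fun p hp => if_neg fun h => hp h.1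
    show 0 < ‖P y0 * ρ y0‖ ^ 2
    rw [hρ0, mul_one]
    have : 0 < ‖P y0‖ := norm_pos_iff.2 hP0
    positivity
  have hrun : ∀ b, run c (ψ b) = fun x => A (fun b' => if b' = b then 1 else 0) (x q) * ρ' x := by
    intro b
    exact h2 (fun b' => if b' = b then 1 else 0)
  have hfY : ∀ (y : Y) (b b' : Bool), f (update (update y.1 q b) t b') =
      if b = false then f y.1 else !(f y.1) := by
    intro y b b'
    rw [hft]
    cases b with
    | false =>
      rw [if_pos rfl]
      have : update y.1 q false = y.1 := update_eq_self_iff.2 y.2.1.symm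
      rw [this]
    | true =>
      rw [if_neg (by simp)]
      exact hf q hq y.1 true (by rw [y.2.1]; simp)
  have hval : ∀ (y : Y) (b b' : Bool), ψ b (update (update (update y.1 q b) t b') t false) = κ y := by
    intro y b b'
    rw [update_idem]
    have e : update (update y.1 q b) t false = update y.1 q b := by
      have : update y.1 q b t = false := by rw [update_of_ne hqt.symm]; exact y.2.2
      exact update_eq_self_iff.2 this.symm
    rw [e]
    show (if update y.1 q b q = b then (1 : ℂ) else 0) *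
      (P (update y.1 q b) * ρ (update y.1 q b)) = _
    rw [update_self, if_pos rfl, one_mul, hPq, hρ q hq]
  have hρ'q : ∀ (y : Y) (b b' : Bool), ρ' (update (update y.1 q b) t b') =
      ρ' (update y.1 t b') := by
    intro y b b'
    rw [update_comm hqt]
    exact h1 q (mem_singleton_self q) _ _
  have hatq : ∀ (y : Y) (b b' : Bool), update (update y.1 q b) t b' q = b := by
    intro y b b'
    rw [update_of_ne hqt, update_self]
  -- the two estimates
  have E0 : ∑ y : Y, (‖A (fun b' => if b' = false then 1 else 0) false * r y - κ y‖ ^ 2 +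
      ‖A (fun b' => if b' = false then 1 else 0) false * r' y‖ ^ 2) ≤
      δ * ∑ x, ‖ψ false x‖ ^ 2 := by
    refine le_trans ?_ (hc (ψ false) (hsupp false))
    refine le_trans (le_of_eq ?_) (hres false _ fun x => by positivity)
    refine Finset.sum_congr rfl fun y _ => ?_
    rw [hrun]
    simp only [ideal, update_self, hfY, hatq, hρ'q, if_true, hval]
    rw [if_neg (by simp), sub_zero]
  have E1 : ∑ y : Y, (‖A (fun b' => if b' = true then 1 else 0) true * r' y - κ y‖ ^ 2 +
      ‖A (fun b' => if b' = true then 1 else 0) true * r y‖ ^ 2) ≤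
      δ * ∑ x, ‖ψ true x‖ ^ 2 := by
    refine le_trans ?_ (hc (ψ true) (hsupp true))
    refine le_trans (le_of_eq ?_) (hres true _ fun x => by positivity)
    refine Finset.sum_congr rfl fun y _ => ?_
    rw [hrun]
    simp only [ideal, update_self, hfY, hatq, hρ'q, Bool.true_eq_false, if_false, if_true, hval]
    rw [if_neg (by simp), sub_zero, add_comm]
  have T0 := two_vec κ r r' (A (fun b' => if b' = false then 1 else 0) false)
  have T1 := two_vec κ r' r (A (fun b' => if b' = true then 1 else 0) true)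
  set M := ∑ y : Y, ‖κ y‖ ^ 2 with hMd
  set s := ∑ y : Y, ‖r y‖ ^ 2 with hsd
  set u := ∑ y : Y, ‖r' y‖ ^ 2 with hud
  have hs0 : 0 ≤ s := Finset.sum_nonneg fun y _ => by positivity
  have hu0 : 0 ≤ u := Finset.sum_nonneg fun y _ => by positivity
  have F0 := E0.trans (mul_le_mul_of_nonneg_left (hnorm false) hδ0)
  have F1 := E1.trans (mul_le_mul_of_nonneg_left (hnorm true) hδ0)
  have hsu : s + u = 0 := by
    by_contra hne
    have hpos : 0 < s + u := lt_of_le_of_ne (by positivity) (Ne.symm hne)
    have G0 : u * M ≤ (s + u) * (δ * M) := T0.trans (mul_le_mul_of_nonneg_left F0 hpos.le)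
    have G1 : s * M ≤ (u + s) * (δ * M) := T1.trans (mul_le_mul_of_nonneg_left F1 (by positivity))
    have : (s + u) * M ≤ (s + u) * (2 * δ * M) := by nlinarith
    have h6 := le_of_mul_le_mul_left this hpos
    nlinarith
  have hs : s = 0 := by linarith
  have hr : ∀ y, r y = 0 := by
    intro y
    have := (Finset.sum_eq_zero_iff_of_nonneg (fun y _ => by positivity)).1 hs y (mem_univ y)
    exact norm_eq_zero.1 (pow_eq_zero_iff (two_ne_zero) |>.1 this)
  have hfin : M ≤ δ * M := by
    refine le_trans ?_ F0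
    rw [hMd]
    refine Finset.sum_le_sum fun y _ => ?_
    rw [hr y, mul_zero, zero_sub, norm_neg]
    have : 0 ≤ ‖A (fun b' => if b' = false then 1 else 0) false * r' y‖ ^ 2 := by positivity
    linarith
  nlinarith

end Vale.Agent.P368b
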