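import Vale.Agent.P368b.Kill

/-!
# P368: exact clean parity needs a multiqubit gate on the inputs for each input
-/

namespace Vale.Agent.P368b

open Finset Function

variable {Q : Type} [Fintype Q] [DecidableEq Q]

theorem act_add (g : Gate Q) (φ ψ : (Q → Bool) → ℂ) : g.act (φ + ψ) = g.act φ + g.act ψ := by
  funext x
  cases g with
  | one q u =>
    simp only [Gate.act, Pi.add_apply, mul_add, Finset.sum_add_distrib]
  | toffoli S t hS ht => rfl

theorem act_smul (g : Gate Q) (a : ℂ) (ψ : (Q → Bool) → ℂ) : g.act (a • ψ) = a • g.act ψ := by
  funext x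
  cases g with
  | one q u =>
    simp only [Gate.act, Pi.smul_apply, smul_eq_mul, Finset.mul_sum]
    refine Finset.sum_congr rfl fun b _ => ?_
    ring
  | toffoli S t hS ht => rfl

/-- The linear map of a circuit. -/
noncomputable def lin (c : List (Gate Q)) : ((Q → Bool) → ℂ) →ₗ[ℂ] ((Q → Bool) → ℂ) where
  toFun := run c
  map_add' := by
    induction c with
    | nil => intro φ ψ; rfl
    | cons g c ih =>
      intro φ ψ
      rw [run_cons, run_cons, run_cons, act_add, ih]
  map_smul' := by
    induction c with
    | nil => intro a ψ; rfl
    | cons g c ih =>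
      intro a ψ
      rw [run_cons, run_cons, act_smul, ih]

theorem eq_sum_ket (ψ : (Q → Bool) → ℂ) : ψ = ∑ y, ψ y • ket y := by
  funext x
  rw [Finset.sum_apply]
  simp [ket]

theorem run_eq_sum (c : List (Gate Q)) (ψ : (Q → Bool) → ℂ) :
    run c ψ = ∑ y, ψ y • run c (ket y) := by
  have : lin c ψ = ∑ y, ψ y • lin c (ket y) := by
    conv_lhs => rw [eq_sum_ket ψ]
    rw [map_sum]
    simp only [map_smul]
  exact this

/-- Abstract form: `U` the inputs, `t` a qubit outside `U`, `Z y` = the other qubits are zero.
If the circuit sends each basis state `y` with the qubits outside `U` zero to the same state with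
the qubit `t` replaced by `f y`, where `f` changes when an input is flipped, then
`card U ≤ hitCount U c`. -/
theorem clean_bound (c : List (Gate Q)) (U : Finset Q) (t : Q) (ht : t ∉ U)
    (f : (Q → Bool) → Bool) (hf : ∀ q ∈ U, ∀ y, f (update y q (!(y q))) = !(f y))
    (hc : ∀ y : Q → Bool, (∀ p, p ∉ U → y p = false) →
      run c (ket y) = ket (update y t (f y))) : U.card ≤ hitCount U c := by
  classical
  by_contra hlt
  push Not at hlt
  obtain ⟨q, hq, v, hv, A, H⟩ := main c U hlt
  have hqt : q ≠ t := fun h => ht (h ▸ hq)
  -- the state of the other qubits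
  let ρ : (Q → Bool) → ℂ := fun x => if ∀ p, p ∉ U → x p = false then 1 else 0
  have hρ : Indep U ρ := by
    intro p hp x b
    show (if ∀ p', p' ∉ U → update x p b p' = false then (1 : ℂ) else 0) =
      if ∀ p', p' ∉ U → x p' = false then 1 else 0
    have : (∀ p', p' ∉ U → update x p b p' = false) ↔ (∀ p', p' ∉ U → x p' = false) := by
      constructor
      · intro h p' hp'
        have := h p' hp'
        rwa [update_of_ne (by rintro rfl; exact hp' hp)] at this
      · intro h p' hp'
        rw [update_of_ne (by rintro rfl; exact hp' hp)]
        exact h p' hp'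
    simp only [this]
  obtain ⟨ρ', h1, h2⟩ := H ρ hρ
  -- a basis state of the killed inputs seen by the product
  have hne : ∀ p, ∃ b, v p b ≠ 0 := by
    intro p
    by_contra hno
    push Not at hno
    exact hv p (funext hno)
  choose β hβ using hne
  let y0 : Q → Bool := fun p => if p ∈ U ∧ p ≠ q then β p else false
  let y1 : Q → Bool := update y0 q true
  let P : (Q → Bool) → ℂ := fun y => ∏ p ∈ U.erase q, v p (y p)
  have hP0 : P y0 ≠ 0 := by
    refine Finset.prod_ne_zero_iff.2 fun p hp => ?_
    have : y0 p = β p := if_pos ⟨Finset.mem_of_mem_erase hp, Finset.ne_of_mem_erase hp⟩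
    rw [this]
    exact hβ p
  have hP1 : P y1 = P y0 := by
    refine Finset.prod_congr rfl fun p hp => ?_
    show v p (update y0 q true p) = _
    rw [update_of_ne (Finset.ne_of_mem_erase hp)]
  have hz0 : ∀ p, p ∉ U → y0 p = false := fun p hp => if_neg fun h => hp h.1
  have hz1 : ∀ p, p ∉ U → y1 p = false := by
    intro p hp
    show update y0 q true p = false
    rw [update_of_ne (by rintro rfl; exact hp hq)]
    exact hz0 p hp
  have hy0q : y0 q = false := if_neg fun h => h.2 rfl
  have hf01 : f y1 = !(f y0) := by
    have := hf q hq y0
    rw [hy0q] at this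
    exact this
  -- the amplitudes of the final state
  have key : ∀ (w : Bool → ℂ) (y : Q → Bool), (∀ p, p ∉ U → y p = false) → ∀ b : Bool,
      run c (fun x => w (x q) * (P x * ρ x)) (update y t b) =
        if b = f y then w (y q) * P y else 0 := by
    intro w y hy b
    rw [run_eq_sum, Finset.sum_apply]
    have hterm : ∀ z : Q → Bool, ((fun x => w (x q) * (P x * ρ x)) z • run c (ket z)) (update y t b)
        = if z = y then (if b = f y then w (y q) * P y else 0) else 0 := by
      intro z
      rw [Pi.smul_apply, smul_eq_mul]
      by_cases hz : ∀ p, p ∉ U → z p = false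
      · rw [hc z hz]
        have hρz : ρ z = 1 := if_pos hz
        by_cases hzy : z = y
        · subst hzy
          rw [if_pos rfl]
          show w (z q) * (P z * ρ z) * (if update z t b = update z t (f z) then 1 else 0) = _
          rw [hρz]
          by_cases hb : b = f z
          · rw [hb, if_pos rfl, if_pos rfl]
            ring
          · rw [if_neg, if_neg hb, mul_zero]
            intro h
            apply hb
            have := congrFun h t
            rwa [update_self, update_self] at this
        · rw [if_neg hzy]
          show w (z q) * (P z * ρ z) * (if update y t b = update z t (f z) then 1 else 0) = _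
          rw [if_neg, mul_zero]
          intro h
          apply hzy
          funext p
          by_cases hp : p = t
          · subst hp
            rw [hz p ht, hy p ht]
          · have := congrFun h p
            rw [update_of_ne hp, update_of_ne hp] at this
            exact this.symm
      · have hρz : ρ z = 0 := if_neg hz
        have hzy : z ≠ y := fun h => hz (h ▸ hy)
        rw [if_neg hzy]
        show w (z q) * (P z * ρ z) * _ = 0
        rw [hρz]
        ring
    rw [Finset.sum_congr rfl fun z _ => hterm z, Finset.sum_ite_eq' Finset.univ y]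
    simp
  have hform : ∀ w : Bool → ℂ, run c (fun x => w (x q) * (P x * ρ x)) =
      fun x => A w (x q) * ρ' x := h2
  -- input |0>
  let w0 : Bool → ℂ := fun b => if b = false then 1 else 0
  let w1 : Bool → ℂ := fun b => if b = true then 1 else 0
  have a1 := key w0 y0 hz0 (f y0)
  have a2 := key w0 y0 hz0 (!(f y0))
  have a3 := key w1 y1 hz1 (f y1)
  rw [hform] at a1 a2 a3
  have hy1q : y1 q = true := update_self _ _ _
  have hu0 : ∀ b, update y0 t b q = false := fun b => by rw [update_of_ne hqt, hy0q]
  have hu1 : ∀ b, update y1 t b q = true := fun b => by rw [update_of_ne hqt, hy1q]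
  have hw0 : w0 false = 1 := rfl
  have hw1 : w1 true = 1 := rfl
  rw [if_pos rfl, hy0q, hw0, one_mul] at a1
  rw [if_neg (by simp)] at a2
  rw [if_pos rfl, hy1q, hw1, one_mul, hP1] at a3
  simp only [hu0] at a1 a2
  simp only [hu1] at a3
  -- rho' does not depend on q
  have e1 : ρ' (update y1 t (f y1)) = ρ' (update y0 t (!(f y0))) := by
    rw [hf01]
    show ρ' (update (update y0 q true) t (!(f y0))) = _
    rw [update_comm hqt]
    exact h1 q (mem_singleton_self q) _ _
  have hA0 : A w0 false ≠ 0 := by
    intro h
    rw [h, zero_mul] at a1
    exact hP0 a1.symm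
  have h0 : ρ' (update y0 t (!(f y0))) = 0 := (mul_eq_zero.1 a2).resolve_left hA0
  rw [e1, h0, mul_zero] at a3
  exact hP0 a3.symm

end Vale.Agent.P368b
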