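import Mathlib

/-!
# P368: circuits of one-qubit unitaries and generalized Toffoli gates
-/

namespace Vale.Agent.P368b

/-- A gate on the qubits `Q`: a one-qubit unitary, or a generalized Toffoli gate with nonempty set
of controls `S` and target `t ∉ S`. -/
inductive Gate (Q : Type) : Type
  | one (q : Q) (u : Matrix.unitaryGroup Bool ℂ) : Gate Q
  | toffoli (S : Finset Q) (t : Q) (hS : S.Nonempty) (ht : t ∉ S) : Gate Q

/-- The action of a gate on a vector of amplitudes (indexed by the computational basis). -/
noncomputable def Gate.act {Q : Type} [DecidableEq Q] :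
    Gate Q → ((Q → Bool) → ℂ) → ((Q → Bool) → ℂ)
  | .one q u, ψ => fun x => ∑ b : Bool, u.1 (x q) b * ψ (Function.update x q b)
  | .toffoli S t _ _, ψ => fun x =>
      ψ (Function.update x t (xor (x t) (decide (∀ s ∈ S, x s = true))))

/-- A circuit is a list of gates, the first gate being applied first. -/
noncomputable def run {Q : Type} [DecidableEq Q] (c : List (Gate Q)) (ψ : (Q → Bool) → ℂ) :
    (Q → Bool) → ℂ := c.foldl (fun φ g => g.act φ) ψ

/-- `g` is a multiqubit gate that acts on at least one qubit of `U`. -/
def Gate.Hits {Q : Type} [DecidableEq Q] (U : Finset Q) : Gate Q → Prop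
  | .one _ _ => False
  | .toffoli S t _ _ => ∃ p ∈ U, p = t ∨ p ∈ S

open Classical in
/-- The number of multiqubit gates of `c` that act on at least one qubit of `U`. -/
noncomputable def hitCount {Q : Type} [DecidableEq Q] (U : Finset Q) (c : List (Gate Q)) : ℕ :=
  c.countP (fun g => decide (g.Hits U))

/-- The qubits on which a gate acts. -/
def Gate.support {Q : Type} [DecidableEq Q] : Gate Q → Finset Q
  | .one q _ => {q}
  | .toffoli S t _ _ => insert t S

/-- `g` is a multiqubit gate. -/
def Gate.IsMulti {Q : Type} : Gate Q → Prop
  | .one _ _ => False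
  | .toffoli _ _ _ _ => True

/-- In a layer the gates have pairwise disjoint supports. -/
def IsLayer {Q : Type} [DecidableEq Q] (L : List (Gate Q)) : Prop :=
  L.Pairwise fun g h => Disjoint g.support h.support

open Classical in
/-- The entangling depth of a circuit given by its list of layers: the number of layers that
contain a multiqubit gate. -/
noncomputable def entDepth {Q : Type} (Ls : List (List (Gate Q))) : ℕ :=
  Ls.countP (fun L => decide (∃ g ∈ L, g.IsMulti))

/-- The basis state `|y⟩`. -/
noncomputable def ket {Q : Type} [Fintype Q] [DecidableEq Q] (y : Q → Bool) : (Q → Bool) → ℂ :=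
  fun x => if x = y then 1 else 0

/-- The parity `x_1 ⊕ ... ⊕ x_n` of a bit string. -/
def par {n : ℕ} (x : Fin n → Bool) : Bool :=
  decide (Odd (Finset.univ.filter (fun i => x i = true)).card)

/-- The basis state of `n` input qubits in state `x` and all other qubits (indexed by `R`) in
state `0`. -/
def start {n : ℕ} {R : Type} (x : Fin n → Bool) : Fin n ⊕ R → Bool := Sum.elim x (fun _ => false)

/-- The input qubits. -/
def inputs (n : ℕ) (R : Type) : Finset (Fin n ⊕ R) :=
  (Finset.univ : Finset (Fin n)).map Function.Embedding.inl

/-- The circuit computes the parity exactly and cleanly: it maps `|x⟩|0...0⟩` to the same basis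
state with the noninput qubit `t` flipped to the parity of `x`. -/
def ComputesCleanly {n : ℕ} {R : Type} [Fintype R] [DecidableEq R] (c : List (Gate (Fin n ⊕ R)))
    (t : R) : Prop :=
  ∀ x : Fin n → Bool, run c (ket (start x)) = ket (Function.update (start x) (Sum.inr t) (par x))

/-- The circuit computes the parity exactly: on input `|x⟩|0...0⟩` a final measurement of the
qubit `o` gives the parity of `x` with certainty; the other qubits may end in any state. -/
def ComputesExactly {n : ℕ} {R : Type} [Fintype R] [DecidableEq R] (c : List (Gate (Fin n ⊕ R)))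
    (o : Fin n ⊕ R) : Prop :=
  ∀ (x : Fin n → Bool) (y : Fin n ⊕ R → Bool), y o ≠ par x → run c (ket (start x)) y = 0

/-- The output of an ideal clean parity circuit with target `t` on the superposition `ψ` of inputs:
`|x⟩|0...0⟩` is mapped to the same basis state with the qubit `t` set to the parity of `x`. -/
noncomputable def idealOut {n : ℕ} {R : Type} [DecidableEq R] (t : R)
    (ψ : (Fin n ⊕ R → Bool) → ℂ) : (Fin n ⊕ R → Bool) → ℂ :=
  fun x => if x (Sum.inr t) = par (fun i => x (Sum.inl i)) then
    ψ (Function.update x (Sum.inr t) false) else 0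

/-- The circuit computes the parity cleanly up to an error `δ`: on every superposition `ψ` of the
states `|x⟩|0...0⟩` its output has distance at most `δ ‖ψ‖` from the ideal output. -/
def ApproximatesCleanly {n : ℕ} {R : Type} [Fintype R] [DecidableEq R]
    (c : List (Gate (Fin n ⊕ R))) (t : R) (δ : ℝ) : Prop :=
  ∀ ψ : (Fin n ⊕ R → Bool) → ℂ, (∀ x, ψ x ≠ 0 → ∀ r : R, x (Sum.inr r) = false) →
    ∑ x, ‖run c ψ x - idealOut t ψ x‖ ^ 2 ≤ δ ^ 2 * ∑ x, ‖ψ x‖ ^ 2

end Vale.Agent.P368b
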