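import Vale.Agent.P368b.Clean

/-!
# P368: exact parity without cleaning up, and the entangling depth
-/

namespace Vale.Agent.P368b

open Finset Function

variable {Q : Type} [DecidableEq Q]

theorem run_append (c₁ c₂ : List (Gate Q)) (ψ : (Q → Bool) → ℂ) :
    run (c₁ ++ c₂) ψ = run c₂ (run c₁ ψ) := List.foldl_append

/-- the inverse gate -/
noncomputable def Gate.inv : Gate Q → Gate Q
  | .one q u => .one q u⁻¹
  | .toffoli S t hS ht => .toffoli S t hS ht

theorem inv_act (g : Gate Q) (ψ : (Q → Bool) → ℂ) : g.inv.act (g.act ψ) = ψ := by
  funext x
  cases g with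
  | one q u =>
    simp only [Gate.inv, Gate.act, update_self, update_idem]
    have h1 : (u⁻¹).1 * u.1 = 1 := by
      have := congrArg Subtype.val (inv_mul_cancel u)
      simpa using this
    calc ∑ b, (u⁻¹).1 (x q) b * ∑ b', u.1 b b' * ψ (update x q b')
        = ∑ b', (∑ b, (u⁻¹).1 (x q) b * u.1 b b') * ψ (update x q b') := by
          simp only [Finset.mul_sum, Finset.sum_mul]
          rw [Finset.sum_comm]
          refine Finset.sum_congr rfl fun b _ => Finset.sum_congr rfl fun b' _ => ?_
          ring
      _ = ∑ b', (if x q = b' then (1 : ℂ) else 0) * ψ (update x q b') := by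
          refine Finset.sum_congr rfl fun b' _ => ?_
          have h2 := congrFun (congrFun h1 (x q)) b'
          rw [Matrix.mul_apply, Matrix.one_apply] at h2
          rw [h2]
      _ = ψ x := by
          rw [Finset.sum_eq_single (x q)]
          · rw [if_pos rfl, one_mul, update_eq_self]
          · intro b _ hb
            rw [if_neg hb.symm, zero_mul]
          · intro h
            exact absurd (mem_univ _) h
  | toffoli S t hS ht =>
    simp only [Gate.inv, Gate.act, update_self, update_idem]
    have e1 : ∀ b, decide (∀ s ∈ S, update x t b s = true) = decide (∀ s ∈ S, x s = true) := by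
      intro b
      apply decide_eq_decide.2
      constructor
      · intro h s hs
        have := h s hs
        rwa [update_of_ne (by rintro rfl; exact ht hs)] at this
      · intro h s hs
        rw [update_of_ne (by rintro rfl; exact ht hs)]
        exact h s hs
    rw [e1, Bool.xor_assoc, Bool.xor_self, Bool.xor_false, update_eq_self]

/-- the inverse circuit -/
noncomputable def inv (c : List (Gate Q)) : List (Gate Q) := (c.map Gate.inv).reverse

theorem run_inv (c : List (Gate Q)) (ψ : (Q → Bool) → ℂ) : run (inv c) (run c ψ) = ψ := by
  induction c generalizing ψ with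
  | nil => rfl
  | cons g c ih =>
    have : inv (g :: c) = inv c ++ [g.inv] := by
      simp [inv]
    rw [this, run_append, run_cons g c ψ, ih]
    exact inv_act g ψ

/-- the same gate with one more qubit -/
noncomputable def Gate.lift : Gate Q → Gate (Option Q)
  | .one q u => .one (some q) u
  | .toffoli S t hS ht => .toffoli (S.map Function.Embedding.some) (some t)
      (hS.map) (by simpa using ht)

/-- the state `φ` with the new qubit in the state `b` -/
def emb (b : Bool) (φ : (Q → Bool) → ℂ) : (Option Q → Bool) → ℂ :=
  fun x => if x none = b then φ (fun q => x (some q)) else 0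

theorem update_some (x : Option Q → Bool) (q : Q) (b : Bool) :
    (fun p => update x (some q) b (some p)) = update (fun p => x (some p)) q b := by
  funext p
  by_cases h : p = q
  · subst h
    simp
  · rw [update_of_ne h, update_of_ne (by simpa using h)]

theorem lift_act (g : Gate Q) (b : Bool) (φ : (Q → Bool) → ℂ) :
    g.lift.act (emb b φ) = emb b (g.act φ) := by
  funext x
  cases g with
  | one q u =>
    simp only [Gate.lift, Gate.act, emb, update_some]
    have e : ∀ b', update x (some q) b' none = x none := fun b' => update_of_ne (by simp) _ _
    simp only [e]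
    by_cases h : x none = b
    · simp only [if_pos h]
    · simp only [if_neg h, mul_zero, Finset.sum_const_zero]
  | toffoli S t hS ht =>
    simp only [Gate.lift, Gate.act, emb, update_some]
    rw [update_of_ne (by simp : (none : Option Q) ≠ some t)]
    have e1 : decide (∀ s ∈ S.map Function.Embedding.some, x s = true) =
        decide (∀ s ∈ S, x (some s) = true) := by
      apply decide_eq_decide.2
      simp
    rw [e1]

/-- the lifted circuit -/
noncomputable def lift (c : List (Gate Q)) : List (Gate (Option Q)) := c.map Gate.lift

theorem run_lift (c : List (Gate Q)) (b : Bool) (φ : (Q → Bool) → ℂ) :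
    run (lift c) (emb b φ) = emb b (run c φ) := by
  induction c generalizing φ with
  | nil => rfl
  | cons g c ih =>
    have : lift (g :: c) = g.lift :: lift c := rfl
    rw [this, run_cons, run_cons, lift_act, ih]

/-- the controlled not from `o` to the new qubit -/
noncomputable def cn (o : Q) : Gate (Option Q) :=
  .toffoli {some o} none (singleton_nonempty _) (by simp)

theorem cn_act (o : Q) (β : Bool) (φ : (Q → Bool) → ℂ) (h : ∀ x, x o ≠ β → φ x = 0) :
    (cn o).act (emb false φ) = emb β φ := by
  funext x
  simp only [cn, Gate.act, emb, update_self]
  have e1 : decide (∀ s ∈ ({some o} : Finset (Option Q)), x s = true) = x (some o) := by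
    simp
  rw [e1]
  have e2 : (fun q => update x none (x none ^^ x (some o)) (some q)) = fun q => x (some q) := by
    funext q
    rw [update_of_ne (by simp)]
  rw [e2]
  by_cases h0 : x (some o) = β
  · rw [h0]
    cases hx : x none <;> cases β <;> simp
  · have := h (fun q => x (some q)) h0
    simp [this]

theorem hits_lift (U : Finset Q) (g : Gate Q) :
    g.lift.Hits (U.map Function.Embedding.some) ↔ g.Hits U := by
  cases g with
  | one q u => exact Iff.rfl
  | toffoli S t hS ht =>
    simp only [Gate.lift, Gate.Hits]
    constructor
    · rintro ⟨p, hp, h⟩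
      rw [Finset.mem_map] at hp
      obtain ⟨a, ha, rfl⟩ := hp
      exact ⟨a, ha, by simpa using h⟩
    · rintro ⟨p, hp, h⟩
      exact ⟨some p, by simpa using hp, by simpa using h⟩

theorem hits_inv (U : Finset Q) (g : Gate Q) : g.inv.Hits U ↔ g.Hits U := by
  cases g <;> exact Iff.rfl

theorem hitCount_append (U : Finset Q) (c₁ c₂ : List (Gate Q)) :
    hitCount U (c₁ ++ c₂) = hitCount U c₁ + hitCount U c₂ := by
  unfold hitCount
  rw [List.countP_append]

theorem hitCount_lift (U : Finset Q) (c : List (Gate Q)) :
    hitCount (U.map Function.Embedding.some) (lift c) = hitCount U c := by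
  unfold hitCount lift
  rw [List.countP_map]
  congr 1
  funext g
  exact decide_eq_decide.2 (hits_lift U g)

theorem hitCount_inv (U : Finset Q) (c : List (Gate Q)) :
    hitCount U (inv c) = hitCount U c := by
  unfold hitCount inv
  rw [List.countP_reverse, List.countP_map]
  congr 1
  funext g
  exact decide_eq_decide.2 (hits_inv U g)

section

variable [Fintype Q]

theorem ket_eq_emb (y : Option Q → Bool) : ket y = emb (y none) (ket fun q => y (some q)) := by
  funext x
  simp only [ket, emb]
  by_cases h1 : x none = y none
  · rw [if_pos h1]
    have : x = y ↔ (fun q => x (some q)) = fun q => y (some q) := by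
      constructor
      · rintro rfl
        rfl
      · intro h
        funext p
        cases p with
        | none => exact h1
        | some q => exact congrFun h q
    simp only [this]
  · rw [if_neg h1, if_neg (by rintro rfl; exact h1 rfl)]

theorem exact_bound (c : List (Gate Q)) (U : Finset Q) (o : Q)
    (f : (Q → Bool) → Bool) (hf : ∀ q ∈ U, ∀ y, f (update y q (!(y q))) = !(f y))
    (hc : ∀ y : Q → Bool, (∀ p, p ∉ U → y p = false) →
      ∀ x, x o ≠ f y → run c (ket y) x = 0) : U.card ≤ 2 * hitCount U c + 1 := by
  classical
  have h1 := clean_bound (lift c ++ (cn o :: lift (inv c))) (U.map Function.Embedding.some) none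
    (by simp) (fun y => f (fun q => y (some q))) (by
      intro q hq y
      rw [Finset.mem_map] at hq
      obtain ⟨a, ha, rfl⟩ := hq
      have e : (fun q => update y (some a) (!(y (some a))) (some q)) =
          update (fun p => y (some p)) a (!(y (some a))) := update_some y a _
      show f (fun q => update y (some a) (!(y (some a))) (some q)) = _
      rw [e]
      exact hf a ha (fun p => y (some p))) (by
      intro y hy
      have hyn : y none = false := hy none (by simp)
      have hys : ∀ p, p ∉ U → y (some p) = false := fun p hp => hy (some p) (by simpa using hp)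
      rw [run_append, run_cons, ket_eq_emb y, run_lift, hyn,
        cn_act o (f fun q => y (some q)) _ (hc _ hys), run_lift, run_inv,
        ket_eq_emb (update y none (f fun q => y (some q))), update_self]
      congr 2
      )
  rw [Finset.card_map, hitCount_append] at h1
  have h2 : hitCount (U.map Function.Embedding.some) (cn o :: lift (inv c)) ≤
      hitCount (U.map Function.Embedding.some) (lift (inv c)) + 1 := by
    rw [hitCount_cons]
    split_ifs <;> omega
  rw [hitCount_lift, hitCount_inv] at h2
  rw [hitCount_lift] at h1
  omega

end

/-- counting in layers -/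
theorem layer_count (U : Finset Q) (m : ℕ) (L : List (Gate Q)) (hL : IsLayer L)
    (hm : ∀ g ∈ L, g.Hits U → m ≤ (U ∩ g.support).card) : m * hitCount U L ≤ U.card := by
  classical
  have key : ∀ (L : List (Gate Q)), IsLayer L →
      (∀ g ∈ L, g.Hits U → m ≤ (U ∩ g.support).card) →
      m * hitCount U L ≤ (U.filter fun p => ∃ g ∈ L, p ∈ g.support).card := by
    intro L
    induction L with
    | nil =>
      intro _ _
      simp [hitCount]
    | cons g L ih =>
      intro hL hm
      have hL' := (List.pairwise_cons.1 hL)
      have h1 := ih hL'.2 (fun g' hg' => hm g' (List.mem_cons_of_mem _ hg'))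
      have hdisj : Disjoint (U ∩ g.support) (U.filter fun p => ∃ g ∈ L, p ∈ g.support) := by
        rw [Finset.disjoint_left]
        intro p hp hp'
        obtain ⟨g', hg', hpg'⟩ := (Finset.mem_filter.1 hp').2
        exact Finset.disjoint_left.1 (hL'.1 g' hg') (Finset.mem_inter.1 hp).2 hpg'
      have hsub : (U ∩ g.support) ∪ (U.filter fun p => ∃ g ∈ L, p ∈ g.support) ⊆
          U.filter fun p => ∃ g' ∈ g :: L, p ∈ g'.support := by
        intro p hp
        rw [Finset.mem_filter]
        rcases Finset.mem_union.1 hp with hp | hp
        · exact ⟨(Finset.mem_inter.1 hp).1, g, List.mem_cons_self, (Finset.mem_inter.1 hp).2⟩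
        · obtain ⟨hpU, g', hg', hpg'⟩ := Finset.mem_filter.1 hp
          exact ⟨hpU, g', List.mem_cons_of_mem _ hg', hpg'⟩
      have h2 := Finset.card_le_card hsub
      rw [Finset.card_union_of_disjoint hdisj] at h2
      rw [hitCount_cons, mul_add]
      have h3 : m * (if g.Hits U then 1 else 0) ≤ (U ∩ g.support).card := by
        split_ifs with hg
        · rw [mul_one]
          exact hm g List.mem_cons_self hg
        · simp
      omega
  exact (key L hL hm).trans (Finset.card_le_card (Finset.filter_subset _ _))

theorem depth_count (U : Finset Q) (m : ℕ) (Ls : List (List (Gate Q)))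
    (hL : ∀ L ∈ Ls, IsLayer L)
    (hm : ∀ g ∈ Ls.flatten, g.Hits U → m ≤ (U ∩ g.support).card) :
    m * hitCount U Ls.flatten ≤ entDepth Ls * U.card := by
  classical
  induction Ls with
  | nil => simp [hitCount]
  | cons L Ls ih =>
    have h1 := ih (fun L' h => hL L' (List.mem_cons_of_mem _ h)) (fun g hg => hm g (by
      rw [List.flatten_cons, List.mem_append]
      exact Or.inr hg))
    have h2 := layer_count U m L (hL L List.mem_cons_self) (fun g hg => hm g (by
      rw [List.flatten_cons, List.mem_append]
      exact Or.inl hg))
    rw [List.flatten_cons, hitCount_append, mul_add]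
    by_cases hmul : ∃ g ∈ L, g.IsMulti
    · have e : entDepth (L :: Ls) = entDepth Ls + 1 := by
        unfold entDepth
        rw [List.countP_cons]
        simp [hmul]
      rw [e, add_mul, one_mul]
      omega
    · have e : entDepth (L :: Ls) = entDepth Ls := by
        unfold entDepth
        rw [List.countP_cons]
        simp [hmul]
      have h0 : hitCount U L = 0 := by
        unfold hitCount
        rw [List.countP_eq_zero]
        intro g hg h
        have h' : g.Hits U := by simpa using h
        apply hmul
        refine ⟨g, hg, ?_⟩
        cases g with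
        | one q u => exact h'.elim
        | toffoli S t hS ht => trivial
      rw [e, h0, mul_zero, zero_add]
      exact h1

end Vale.Agent.P368b
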