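import Vale.Agent.P368b.Defs

/-!
# P368: killing the gates that touch the inputs
-/

namespace Vale.Agent.P368b

open Finset Function

variable {Q : Type} [DecidableEq Q]

/-- `ρ` does not depend on the coordinates in `U`. -/
def Indep (U : Finset Q) (ρ : (Q → Bool) → ℂ) : Prop :=
  ∀ p ∈ U, ∀ x b, ρ (update x p b) = ρ x

theorem run_cons (g : Gate Q) (c : List (Gate Q)) (ψ : (Q → Bool) → ℂ) :
    run (g :: c) ψ = run c (g.act ψ) := rfl

theorem hitCount_cons (U : Finset Q) (g : Gate Q) (c : List (Gate Q)) [Decidable (g.Hits U)] :
    hitCount U (g :: c) = hitCount U c + if g.Hits U then 1 else 0 := by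
  unfold hitCount
  rw [List.countP_cons]
  congr 1
  simp

theorem Hits_mono {U V : Finset Q} (h : U ⊆ V) (g : Gate Q) (hg : g.Hits U) : g.Hits V := by
  cases g with
  | one q u => exact hg
  | toffoli S t hS ht =>
    obtain ⟨p, hp, h2⟩ := hg
    exact ⟨p, h hp, h2⟩

theorem hitCount_mono {U V : Finset Q} (h : U ⊆ V) (c : List (Gate Q)) :
    hitCount U c ≤ hitCount V c := by
  unfold hitCount
  apply List.countP_mono_left
  intro g _ hg
  simp only [decide_eq_true_eq] at hg ⊢
  exact Hits_mono h g hg

/-- A gate is killed by a suitable state of any of its qubits. -/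
theorem kill {S : Finset Q} {t : Q} (hS : S.Nonempty) (ht : t ∉ S) {p : Q} (hp : p = t ∨ p ∈ S) :
    ∃ k : Bool → ℂ, k ≠ 0 ∧ ∀ σ : (Q → Bool) → ℂ, Indep {p} σ →
      (Gate.toffoli S t hS ht).act (fun x => k (x p) * σ x) = fun x => k (x p) * σ x := by
  rcases hp with rfl | hp
  · refine ⟨fun _ => 1, fun h => one_ne_zero (congrFun h true), fun σ hσ => ?_⟩
    funext x
    simp only [Gate.act, one_mul]
    exact hσ p (mem_singleton_self p) _ _
  · have hpt : p ≠ t := fun h => ht (h ▸ hp)
    refine ⟨fun b => if b = true then 0 else 1, fun h => one_ne_zero (congrFun h false),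
      fun σ hσ => ?_⟩
    funext x
    simp only [Gate.act]
    rw [update_of_ne hpt]
    cases hx : x p with
    | true => simp
    | false =>
      have hd : decide (∀ s ∈ S, x s = true) = false := by
        rw [decide_eq_false_iff_not]
        intro h
        rw [h p hp] at hx
        exact absurd hx (by simp)
      rw [hd, Bool.xor_false, update_eq_self]

theorem act_disjoint_indep {U : Finset Q} {g : Gate Q} (hg : ∀ p ∈ U, ¬ g.Hits {p})
    (hone : ∀ q u, g = Gate.one q u → q ∉ U) {ρ : (Q → Bool) → ℂ} (hρ : Indep U ρ) :
    Indep U (g.act ρ) := by
  intro p hp x b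
  cases g with
  | one q u =>
    have hq : q ≠ p := fun h => hone q u rfl (h ▸ hp)
    simp only [Gate.act]
    rw [update_of_ne hq]
    refine Finset.sum_congr rfl fun b' _ => ?_
    rw [update_comm hq.symm, hρ p hp]
  | toffoli S t hS ht =>
    have h1 : p ≠ t := fun h => hg p hp ⟨p, mem_singleton_self p, Or.inl h⟩
    have h2 : p ∉ S := fun h => hg p hp ⟨p, mem_singleton_self p, Or.inr h⟩
    simp only [Gate.act]
    have e1 : decide (∀ s ∈ S, update x p b s = true) = decide (∀ s ∈ S, x s = true) := by
      apply decide_eq_decide.2
      constructor
      · intro h s hs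
        have := h s hs
        rwa [update_of_ne (by rintro rfl; exact h2 hs)] at this
      · intro h s hs
        rw [update_of_ne (by rintro rfl; exact h2 hs)]
        exact h s hs
    rw [e1, update_of_ne h1.symm, update_comm h1, hρ p hp]

/-- A gate acts on the second factor only, if the first factor does not see its qubits. -/
theorem act_mul {g : Gate Q} {f ρ : (Q → Bool) → ℂ}
    (h : match g with
      | .one q _ => ∀ x b, f (update x q b) = f x
      | .toffoli _ t _ _ => ∀ x b, f (update x t b) = f x) :
    g.act (fun x => f x * ρ x) = fun x => f x * g.act ρ x := by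
  cases g with
  | one q u =>
    funext x
    simp only [Gate.act] at h ⊢
    rw [Finset.mul_sum]
    refine Finset.sum_congr rfl fun b _ => ?_
    rw [h]
    ring
  | toffoli S t hS ht =>
    funext x
    simp only [Gate.act] at h ⊢
    rw [h]

theorem main (c : List (Gate Q)) : ∀ U : Finset Q, hitCount U c < U.card →
    ∃ q ∈ U, ∃ v : Q → Bool → ℂ, (∀ p, v p ≠ 0) ∧ ∃ A : (Bool → ℂ) → (Bool → ℂ),
      ∀ ρ, Indep U ρ → ∃ ρ', Indep {q} ρ' ∧ ∀ w : Bool → ℂ,
        run c (fun x => w (x q) * ((∏ p ∈ U.erase q, v p (x p)) * ρ x)) =
          fun x => A w (x q) * ρ' x := by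
  classical
  induction c with
  | nil =>
    intro U hU
    obtain ⟨q, hq⟩ := Finset.card_pos.1 (lt_of_le_of_lt (Nat.zero_le _) hU)
    refine ⟨q, hq, fun _ _ => 1, fun p h => one_ne_zero (congrFun h true), id, fun ρ hρ =>
      ⟨ρ, fun p hp => ?_, fun w => ?_⟩⟩
    · rw [mem_singleton.1 hp]
      exact hρ q hq
    · funext x
      simp [run]
  | cons g c ih =>
    intro U hU
    rw [hitCount_cons] at hU
    cases g with
    | one r u =>
      have hU' : hitCount U c < U.card := by
        have : ¬ (Gate.one r u : Gate Q).Hits U := fun h => h
        rw [if_neg this, add_zero] at hU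
        exact hU
      obtain ⟨q, hq, v, hv, A, H⟩ := ih U hU'
      by_cases hrU : r ∈ U
      · by_cases hrq : r = q
        · subst hrq
          refine ⟨r, hq, v, hv, fun w => A (fun b => ∑ b', u.1 b b' * w b'), fun ρ hρ => ?_⟩
          obtain ⟨ρ', h1, h2⟩ := H ρ hρ
          refine ⟨ρ', h1, fun w => ?_⟩
          rw [run_cons, ← h2]
          congr 1
          funext x
          simp only [Gate.act]
          rw [Finset.sum_mul]
          refine Finset.sum_congr rfl fun b _ => ?_
          rw [update_self, hρ r hq]
          have : ∏ p ∈ U.erase r, v p (update x r b p) = ∏ p ∈ U.erase r, v p (x p) := by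
            refine Finset.prod_congr rfl fun p hp => ?_
            rw [update_of_ne (Finset.ne_of_mem_erase hp)]
          rw [this]
          ring
        · -- change the vector at r
          have hrU' : r ∈ U.erase q := Finset.mem_erase.2 ⟨hrq, hrU⟩
          refine ⟨q, hq, update v r (fun b => ∑ b', (star u.1) b b' * v r b'), fun p => ?_, A,
            fun ρ hρ => ?_⟩
          · by_cases hp : p = r
            · subst hp
              rw [update_self]
              intro h0
              apply hv p
              funext b
              have h1 : (u.1 * star u.1).mulVec (v p) = v p := by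
                rw [Matrix.mem_unitaryGroup_iff.1 u.2, Matrix.one_mulVec]
              have h2 : (star u.1).mulVec (v p) = 0 := by
                funext b
                exact congrFun h0 b
              rw [← Matrix.mulVec_mulVec, h2, Matrix.mulVec_zero] at h1
              rw [← h1]
            · rw [update_of_ne hp]
              exact hv p
          · obtain ⟨ρ', h1, h2⟩ := H ρ hρ
            refine ⟨ρ', h1, fun w => ?_⟩
            rw [run_cons, ← h2]
            congr 1
            funext x
            simp only [Gate.act]
            have hsplit : ∀ (v' : Q → Bool → ℂ) (y : Q → Bool), ∏ p ∈ U.erase q, v' p (y p) =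
                v' r (y r) * ∏ p ∈ (U.erase q).erase r, v' p (y p) := by
              intro v' y
              rw [← Finset.mul_prod_erase _ _ hrU']
            simp only [hsplit]
            have e1 : ∀ b, ∏ p ∈ (U.erase q).erase r,
                update v r (fun b => ∑ b', (star u.1) b b' * v r b') p (update x r b p) =
                ∏ p ∈ (U.erase q).erase r, v p (x p) := by
              intro b
              refine Finset.prod_congr rfl fun p hp => ?_
              rw [update_of_ne (Finset.ne_of_mem_erase hp),
                update_of_ne (Finset.ne_of_mem_erase hp)]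
            simp only [e1, update_self]
            have e2 : ∀ b, update x r b q = x q := fun b => update_of_ne (Ne.symm hrq) _ _
            simp only [e2, hρ r hrU]
            have h3 : ∑ b, u.1 (x r) b * ∑ b', (star u.1) b b' * v r b' = v r (x r) := by
              have h1 : (u.1 * star u.1).mulVec (v r) = v r := by
                rw [Matrix.mem_unitaryGroup_iff.1 u.2, Matrix.one_mulVec]
              rw [← Matrix.mulVec_mulVec] at h1
              exact congrFun h1 (x r)
            calc _ = (∑ b, u.1 (x r) b * ∑ b', (star u.1) b b' * v r b') *
                  (w (x q) * (∏ p ∈ (U.erase q).erase r, v p (x p)) * ρ x) := by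
                  rw [Finset.sum_mul]
                  refine Finset.sum_congr rfl fun b _ => ?_
                  ring
              _ = _ := by
                  rw [h3]
                  ring
      · refine ⟨q, hq, v, hv, A, fun ρ hρ => ?_⟩
        have hi : Indep U ((Gate.one r u).act ρ) := act_disjoint_indep (g := Gate.one r u) (fun p _ h => h)
          (fun q' u' h => by
            injection h with h1 h2
            exact h1 ▸ hrU) hρ
        obtain ⟨ρ', h1, h2⟩ := H _ hi
        refine ⟨ρ', h1, fun w => ?_⟩
        rw [run_cons, ← h2]
        congr 1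
        have hqr : q ≠ r := fun h => hrU (h ▸ hq)
        have := act_mul (g := Gate.one r u)
          (f := fun x => w (x q) * ∏ p ∈ U.erase q, v p (x p)) (ρ := ρ) (by
            intro x b
            show w (update x r b q) * ∏ p ∈ U.erase q, v p (update x r b p) = _
            rw [update_of_ne hqr]
            congr 1
            refine Finset.prod_congr rfl fun p hp => ?_
            rw [update_of_ne (by rintro rfl; exact hrU (Finset.mem_of_mem_erase hp))])
        simpa only [mul_assoc] using this
    | toffoli S t hS ht =>
      by_cases hhit : (Gate.toffoli S t hS ht : Gate Q).Hits U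
      · rw [if_pos hhit] at hU
        obtain ⟨p0, hp0, hp0'⟩ := hhit
        obtain ⟨k, hk0, hk⟩ := kill hS ht hp0'
        have hU' : hitCount (U.erase p0) c < (U.erase p0).card := by
          rw [Finset.card_erase_of_mem hp0]
          have := hitCount_mono (Finset.erase_subset p0 U) c
          omega
        obtain ⟨q, hq, v, hv, A, H⟩ := ih (U.erase p0) hU'
        have hqU : q ∈ U := Finset.mem_of_mem_erase hq
        have hqp : q ≠ p0 := Finset.ne_of_mem_erase hq
        refine ⟨q, hqU, update v p0 k, fun p => ?_, A, fun ρ hρ => ?_⟩
        · by_cases hp : p = p0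
          · subst hp
            rw [update_self]
            exact hk0
          · rw [update_of_ne hp]
            exact hv p
        · have hi : Indep (U.erase p0) (fun x => k (x p0) * ρ x) := by
            intro p hp x b
            show k (update x p b p0) * ρ (update x p b) = _
            rw [update_of_ne (Finset.ne_of_mem_erase hp).symm, hρ p (Finset.mem_of_mem_erase hp)]
          obtain ⟨ρ', h1, h2⟩ := H _ hi
          refine ⟨ρ', h1, fun w => ?_⟩
          have hp0q : p0 ∈ U.erase q := Finset.mem_erase.2 ⟨hqp.symm, hp0⟩
          have e0 : ∀ x : Q → Bool, ∏ p ∈ U.erase q, update v p0 k p (x p) =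
              k (x p0) * ∏ p ∈ (U.erase p0).erase q, v p (x p) := by
            intro x
            rw [← Finset.mul_prod_erase _ _ hp0q, update_self, Finset.erase_right_comm]
            congr 1
            refine Finset.prod_congr rfl fun p hp => ?_
            rw [update_of_ne (Finset.ne_of_mem_erase (Finset.mem_of_mem_erase hp))]
          rw [run_cons, ← h2]
          congr 1
          have hσ : Indep {p0} (fun x => w (x q) *
              ((∏ p ∈ (U.erase p0).erase q, v p (x p)) * ρ x)) := by
            intro p hp x b
            rw [mem_singleton.1 hp]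
            show w (update x p0 b q) * ((∏ p ∈ (U.erase p0).erase q, v p (update x p0 b p)) *
              ρ (update x p0 b)) = _
            rw [update_of_ne hqp, hρ p0 hp0]
            congr 2
            refine Finset.prod_congr rfl fun p hp => ?_
            rw [update_of_ne (Finset.ne_of_mem_erase (Finset.mem_of_mem_erase hp))]
          have h3 := hk _ hσ
          have e4 : (fun x => w (x q) * ((∏ p ∈ U.erase q, update v p0 k p (x p)) * ρ x)) =
              fun x => k (x p0) * (w (x q) * ((∏ p ∈ (U.erase p0).erase q, v p (x p)) * ρ x)) := by
            funext x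
            rw [e0]
            ring
          rw [e4, h3]
          funext x
          ring
      · rw [if_neg hhit, add_zero] at hU
        obtain ⟨q, hq, v, hv, A, H⟩ := ih U hU
        refine ⟨q, hq, v, hv, A, fun ρ hρ => ?_⟩
        have hi : Indep U ((Gate.toffoli S t hS ht).act ρ) := act_disjoint_indep
          (fun p hp h => hhit (Hits_mono (Finset.singleton_subset_iff.2 hp) _ h))
          (fun q' u' h => by cases h) hρ
        obtain ⟨ρ', h1, h2⟩ := H _ hi
        refine ⟨ρ', h1, fun w => ?_⟩
        rw [run_cons, ← h2]
        congr 1
        have htU : t ∉ U := fun h => hhit ⟨t, h, Or.inl rfl⟩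
        have hqt : q ≠ t := fun h => htU (h ▸ hq)
        have := act_mul (g := Gate.toffoli S t hS ht)
          (f := fun x => w (x q) * ∏ p ∈ U.erase q, v p (x p)) (ρ := ρ) (by
            intro x b
            show w (update x t b q) * ∏ p ∈ U.erase q, v p (update x t b p) = _
            rw [update_of_ne hqt]
            congr 1
            refine Finset.prod_congr rfl fun p hp => ?_
            rw [update_of_ne (by rintro rfl; exact htU (Finset.mem_of_mem_erase hp))])
        simpa only [mul_assoc] using this

end Vale.Agent.P368b
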